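import Vale.Agent.P287D.Sf.Fac
import Vale.Agent.P287D.Tg.St

/-!
# P287D: the surface lemma (statements)
-/

open Set

noncomputable section

namespace Vale.Agent.P287D.Sl

open Sf

variable {L : Type} [Field L] [Algebra ℂ L]

/-- the data on a numerical model: `ξ ∼ K + N`, `D ∼ ε N`, `0 ≤ ξ ≤ D` on the curves -/
structure Dt (m : Nm L) (ε : ℝ) (N ξ D : BD L) : Prop where
  nn : Nn N
  det : Det m.A N
  pos : 0 < I2 N N
  xi : ξ - (m.k + N) ∈ Prn L
  x0 : 0 ≤ ξ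
  dp : D - ε • N ∈ Prn L
  d0 : 0 ≤ D
  le : ∀ P, 0 < dg m.A P → ξ P ≤ D P

/-- a statement for all data on minimal models -/
def ForM (p : ∀ (L : Type) [Field L] [Algebra ℂ L], Nm L → ℝ → BD L → Prop) : Prop :=
  ∀ (L : Type) [Field L] [Algebra ℂ L] (m : Nm L) (ε : ℝ) (N ξ D : BD L), FF L 2 →
    Dt m ε N ξ D → 0 < ε → ε ≤ 1 / 10 → (∀ E, ¬ m.Neg E) → p L m ε D

/-- **MIN**: minimal models -/
def MIN : Prop := ForM fun _ _ _ m ε D => I2 m.k m.k ≤ 9 ∧ m.Mu D (100 * ε)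

/-- **CHAIN**: from the minimal models to the surface lemma -/
def CHAIN : Prop := MIN → Tg.SL

end Vale.Agent.P287D.Sl
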