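import Vale.Agent.P287D.Su.Mov
import Vale.Agent.P287D.Sl.St
import Vale.Agent.P287D.Sf.Row

/-!
# P287D, the surface lemma: the end on a minimal model
-/

open Set

noncomputable section

namespace Vale.Agent.P287D.Sl

open Sf Sf.Nm Su

variable {L : Type} [Field L] [Algebra ℂ L] {β N D ξ : BD L} {P Q : Pl L} {ε : ℝ}

variable (R : Rows L) (m : Nm L)

include R

theorem nonneg_of (hβ : β ∈ Car L) (d : Det m.A β) (h : ∀ P, 0 < dg m.A P → 0 ≤ β P) : 0 ≤ β :=
  R.negat m.nn m.pos hβ h fun P k => (d P k).le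

/-- the degree of an effective divisor on a curve -/
theorem mul_le_dg (hβ : β ∈ Car L) (d : Det m.A β) (h : ∀ P, 0 < dg m.A P → 0 ≤ β P)
    (hP : 0 < dg m.A P) : β P * dg (m.c P) P ≤ dg β P := by
  have c := add_mem hβ (Submodule.smul_mem _ (-β P) (m.car hP))
  have k := R.eff _ c (nonneg_of R m c
    (R.det_add d (R.det_smul _ (m.cd P hP) (m.car hP)) hβ (Submodule.smul_mem _ _ (m.car hP)))
    fun Q q => by
      rw [Pi.add_apply, Pi.smul_apply, m.cδ P Q hP q]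
      by_cases e : Q = P
      · simp [e, Pl.δ_self]
      · simpa [Pl.δ_ne e] using h Q q) P (by simp [m.c_self hP])
  rw [R.add_smul hβ (m.car hP)] at k
  linarith

/-- a divisor of the model is the sum of its components -/
theorem eq_cm (hβ : β ∈ Car L) (d : Det m.A β) :
    ∃ S : Finset (Pl L), (∀ P ∈ S, 0 < dg m.A P) ∧ β = m.cm S β := by
  have f := m.fin β (R.isb β hβ)
  have hS : ∀ P ∈ f.toFinset, 0 < dg m.A P := fun P k => (f.mem_toFinset.1 k).1
  refine ⟨_, hS, R.mum_unique m.nn m.pos hβ (m.cm_car R β hS) d (m.cm_det R β hS) fun P k => ?_⟩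
  by_cases c : P ∈ f.toFinset
  · exact (m.cm_of_mem R β hS c).symm
  · rw [m.cm_of_not R β hS k c]
    exact by_contra fun z => c (f.mem_toFinset.2 ⟨k, z⟩)

theorem one_le (hβ : β ∈ CarZ L) (h : 0 < dg β P) : 1 ≤ dg β P := by
  obtain ⟨z, e⟩ := R.int β hβ P
  rw [e] at h ⊢
  exact_mod_cast Int.add_one_le_of_lt (Int.cast_pos.1 h)

theorem k_le (h : dg m.k P < 0) : dg m.k P ≤ -1 := by
  obtain ⟨z, e⟩ := R.int _ m.kZ P
  rw [e] at h ⊢
  exact_mod_cast Int.le_sub_one_of_lt (Int.cast_lt_zero.1 h)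

variable (X : Xr L) (hm : ∀ E, ¬ m.Neg E)

include X hm

/-- the fibres of a minimal ruled surface -/
theorem vert (hP : 0 < dg m.A P) (sq : dg (m.c P) P = 0) (hk : dg m.k P < 0)
    (hQ : 0 < dg m.A Q) (h : dg (m.c P) Q = 0) : dg m.k Q < 0 := by
  by_contra c
  have c := not_lt.1 c
  have fc := m.car hP
  have nf := c_nn R m hP sq.ge
  have df := m.cd P hP
  have kc := m.kcar
  have ac := m.nn.car
  obtain ⟨χ, rr⟩ := X.eff R
  obtain ⟨j, hj⟩ := exists_nat_gt (2 * |χ| + |dg (m.c Q) Q + dg m.k Q|)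
  have ff : I2 (m.c P) (m.c P) = 0 := (m.I2_c hP df).trans sq
  have fq : I2 (m.c P) (m.c Q) = 0 := (m.I2_c' R hQ fc df).trans h
  have qf : I2 (m.c Q) (m.c P) = 0 := (m.I2_c hQ df).trans h
  have hD : (j : ℝ) • m.c P + (-1 : ℝ) • m.c Q ∈ CarZ L :=
    add_mem (CarZ.nsmul (m.cZ P hP) j) (by rw [neg_one_smul]; exact neg_mem (m.cZ Q hQ))
  obtain ⟨u, u0, hu⟩ := rr _ hD _ nf (by
      rw [lin_I2 R fc (m.car hQ) fc, ff, qf, m.cn_c R hP]
      linarith) (by
      rw [lin_lin R fc (m.car hQ), I2_lin R R.cnb fc (m.car hQ), ff, fq, m.cn_c R hP, m.cn_c R hQ,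
        m.I2_c hQ (m.cd Q hQ)]
      have := neg_abs_le χ
      have := neg_abs_le (dg (m.c Q) Q + dg m.k Q)
      have := mul_le_mul_of_nonneg_left (k_le R m hk) (Nat.cast_nonneg (α := ℝ) j)
      linarith)
  have rp := hu.rep u0
  set G := dv u + ((j : ℝ) • m.c P + (-1 : ℝ) • m.c Q)
  have Gc : G ∈ Car L := rp.car (CarZ.car hD)
  have Fc : G + m.c Q ∈ Car L := add_mem Gc (m.car hQ)
  have F0 : 0 ≤ G + m.c Q := add_nonneg rp.nonneg (m.c0 Q hQ)
  have FI : ∀ γ ∈ Car L, I2 (G + m.c Q) γ = j * I2 (m.c P) γ := fun γ hγ => by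
    rw [R.add_l (R.isb _ Gc) (R.isb _ (m.car hQ)) hγ,
      R.congr_l (R.isb _ (CarZ.car hD)) rp.prn hγ, lin_I2 R fc (m.car hQ) hγ]
    ring
  have bc := lin_car kc ac (dg m.A P) (-dg m.k P)
  have db := lin_det R m.kd (.refl _) kc ac (dg m.A P) (-dg m.k P)
  have key : ∀ T, 0 ≤ (G + m.c Q) T * dg (dg m.A P • m.k + (-dg m.k P) • m.A) T := fun T => by
    rcases (F0 T).eq_or_lt with z | z
    · rw [← z]
      simp
    refine mul_nonneg z.le ?_
    rcases (m.nn.nn T).eq_or_lt with a | a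
    · exact (db T a.symm).ge
    rw [dg_lin R kc ac]
    rcases lt_or_ge (dg m.k T) 0 with k | k
    · have v : dg (m.c P) T = 0 := by
        have := R.le_I2 (R.isb _ Fc) fc (fun T => mul_nonneg (F0 T) (nf.nn T)) T
        rw [FI _ fc, ff, mul_zero] at this
        exact le_antisymm (nonpos_of_mul_nonpos_right this z) (nf.nn T)
      have s : 0 ≤ dg (m.c T) T := not_lt.1 fun l => hm T (m.neg_of R a l k).1
      have := R.hi0 ac (lin_car (m.car a) fc (dg m.A P) (-dg m.A T)) m.pos (by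
          rw [I2_lin R (R.isb _ ac) (m.car a) fc, m.I2_c' R a ac (.refl _),
            m.I2_c' R hP ac (.refl _)]
          ring) (by
          rw [lin_lin R (m.car a) fc, ff, m.I2_c a (m.cd T a), m.I2_c a df, v]
          nlinarith [mul_nonneg (mul_self_nonneg (dg m.A P)) s]) kc
      rw [lin_I2 R (m.car a) fc kc, m.I2_c a m.kd, m.I2_c hP m.kd] at this
      linarith
    · nlinarith [mul_nonneg hP.le k, mul_pos (neg_pos.2 hk) a]
  have := R.le_I2 (R.isb _ Fc) bc key Q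
  rw [FI _ bc, m.I2_c hP db, dg_lin R kc ac, dg_lin R kc ac, Pi.add_apply, m.c_self hQ] at this
  have g := rp.nonneg Q
  have p : 0 < dg m.A P * dg m.k Q + -dg m.k P * dg m.A Q := by
    nlinarith [mul_nonneg hP.le c, mul_pos (neg_pos.2 hk) hQ]
  have : 0 < (G Q + 1) * (dg m.A P * dg m.k Q + -dg m.k P * dg m.A Q) :=
    mul_pos (by simp only [Pi.zero_apply] at g; linarith) p
  nlinarith

/-- a class which sees the curves of non-negative canonical degree -/
theorem fib (hk : ¬ Nn m.k) : ∃ f, Nn f ∧ Det m.A f ∧ -2 ≤ I2 f m.k ∧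
    ∀ Q, 0 < dg m.A Q → 0 ≤ dg m.k Q → 1 ≤ dg f Q := by
  rcases mmp_end R X m hm hk with ⟨P, hP, sq, k, k'⟩ | ⟨-, -, h⟩
  · have nf := c_nn R m hP sq.ge
    exact ⟨_, nf, m.cd P hP, (m.I2_c hP m.kd).symm ▸ k', fun Q q c => one_le R (m.cZ P hP)
      (nf.pos_of fun z => (vert R m X hm hP sq k q z).not_ge c)⟩
  · exact ⟨0, ⟨zero_mem _, fun P => (R.zero P).ge⟩, fun P _ => R.zero P,
      by rw [I2_zero (Z := 0) fun P z => absurd rfl z]; norm_num, fun Q q c => absurd (h Q q) c.not_gt⟩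

/-- **the end on a minimal model** -/
theorem min_end (hN : Nn N) (dN : Det m.A N) (pos : 0 < I2 N N) (hξ : ξ ∈ Car L) (hD : D ∈ Car L)
    (eξ : ∀ P, dg ξ P = dg m.k P + dg N P) (eD : ∀ P, dg D P = ε * dg N P)
    (h0 : ∀ P, 0 < dg m.A P → 0 ≤ ξ P) (h1 : ∀ P, 0 < dg m.A P → ξ P ≤ D P) (e0 : 0 < ε)
    (e1 : ε ≤ 1 / 10) : I2 m.k m.k ≤ 9 ∧ (∀ P, 0 < dg m.A P → D P ≤ 40 * ε) ∧
      ∀ u, dg m.A u = 0 → D u ≤ 40 * ε * (cn L 2 u - m.k u) := by
  have mult : ∀ P u (b : ℕ), 0 < dg m.A P → dg m.A u = 0 →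
      dg (m.c P) P + dg m.k P + 2 < b * (b + 1) → m.c P u ≤ b * (cn L 2 u - m.k u) :=
    fun P u b a k l => m.mult R a (by
      have : (0 : ℝ) ≤ pg P.κ 1 := Nat.cast_nonneg _
      unfold dl
      linarith) k
  have kc := m.kcar
  have nc := hN.car
  have dξ : Det m.A ξ := fun P k => by rw [eξ, m.kd P k, dN P k, add_zero]
  have dD : Det m.A D := fun P k => by rw [eD, dN P k, mul_zero]
  have D0 : ∀ P, 0 < dg m.A P → 0 ≤ D P := fun P k => (h0 P k).trans (h1 P k)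
  have Iξ : ∀ γ ∈ Car L, I2 γ ξ = I2 γ m.k + I2 γ N := fun γ h => by
    rw [← R.add_r (R.isb _ h) kc nc]
    exact I2_dg _ fun P => by rw [eξ, R.add _ kc _ nc]
  have ID : ∀ γ ∈ Car L, I2 D γ = ε * I2 γ N := fun γ h => by
    rw [R.symm D hD γ h, ← R.smul_r ε (R.isb _ h) nc]
    exact I2_dg _ fun P => by rw [eD, R.smul _ _ nc]
  have le : ∀ γ, Nn γ → Det m.A γ → I2 γ m.k + I2 γ N ≤ ε * I2 γ N := fun γ h d => by
    rw [← Iξ γ h.car, ← ID γ h.car, R.symm γ h.car ξ hξ]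
    exact R.mono_l (R.isb _ hξ) (R.isb _ hD) h fun P k => h1 P (d.pos m.nn k.ne')
  have nξ : Nn ξ := ⟨hξ, fun P => not_lt.1 fun c => by
    have a := dξ.pos m.nn c.ne
    have := mul_le_dg R m hξ dξ h0 a
    refine hm P (m.neg_of R a (not_le.1 fun s => ?_) (by linarith [eξ P, hN.nn P])).1
    linarith [mul_nonneg (h0 P a) s]⟩
  have kN := le N hN dN
  have kN' := R.symm _ kc N nc
  have sq : (1 - 2 * ε) * I2 N N ≤ I2 m.k m.k := by
    have := X.nn R nξ nξ
    rw [Iξ ξ hξ, R.symm ξ hξ _ kc, R.symm ξ hξ _ nc, Iξ _ kc, Iξ _ nc] at this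
    linarith
  obtain ⟨f, nf, df, kf, hf⟩ := fib R m X hm fun h => by
    nlinarith [X.nn R hN h]
  have fN := le f nf df
  have fN0 := X.nn R nf hN
  have fN' : I2 f N ≤ 3 := by nlinarith
  have neg : ∀ P, 0 < dg m.A P → 0 ≤ dg m.k P → dg m.k P = 0 ∧ dg (m.c P) P < 0 := fun P a k => by
    have d : D P ≤ 3 / 10 := by
      have := R.le_I2 (R.isb _ hD) nf.car (fun Q => by
        rcases (nf.nn Q).eq_or_lt with z | z
        · rw [← z, mul_zero]
        · exact mul_nonneg (D0 Q (df.pos m.nn z.ne')) z.le) P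
      rw [ID f nf.car] at this
      nlinarith [mul_le_mul_of_nonneg_left (hf P a k) (D0 P a)]
    have z := mul_le_dg R m (sub_mem hD hξ) (R.det_sub dD dξ hD hξ)
      (fun Q q => sub_nonneg.2 (h1 Q q)) a
    rw [R.sub hD hξ, eD, eξ, Pi.sub_apply] at z
    have z0 := sub_nonneg.2 (h1 P a)
    have n0 := hN.nn P
    have n1 : ε * dg N P ≤ dg N P / 10 := by nlinarith
    have s : dg (m.c P) P < 0 := not_le.1 fun s =>
      (m.sq_neg R nc pos dN ⟨a, by nlinarith [mul_nonneg z0 s]⟩).not_ge s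
    refine ⟨le_antisymm (not_lt.1 fun c => ?_) k, s⟩
    have c1 := one_le R m.kZ c
    have g0 : (0 : ℝ) ≤ pg P.κ 1 := Nat.cast_nonneg _
    have := m.gen P a
    have z1 : D P - ξ P ≤ 3 / 10 := by linarith [h0 P a]
    nlinarith [mul_le_mul_of_nonneg_right z1 (neg_pos.2 s).le]
  have nk : Nn (-m.k) := ⟨neg_mem kc, fun P => by
    rw [R.neg kc]
    rcases (m.nn.nn P).eq_or_lt with a | a
    · rw [m.kd P a.symm, neg_zero]
    · exact neg_nonneg.2 (not_lt.1 fun c => c.ne' (neg P a c.le).1)⟩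
  have k9 := dpv R X m nk
  have n1 : 1 ≤ I2 N N := by
    have := X.nn R (R.nn_add nk hN) nξ
    rw [R.add_l (R.isb _ nk.car) (R.isb _ nc) hξ, R.neg_l (R.isb _ kc) hξ, Iξ _ kc,
      Iξ _ nc] at this
    obtain ⟨z, e⟩ := I2_int' R m.kZ m.kZ
    have z0 : (0 : ℝ) < z := by nlinarith
    have : (1 : ℝ) ≤ z := by exact_mod_cast Int.add_one_le_of_lt (Int.cast_pos.1 z0)
    linarith
  have nM := R.nn_add hN nf
  have dM := R.det_add dN df nc nf.car
  have DM : I2 D (N + f) ≤ 20 * ε := by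
    rw [ID _ nM.car, R.add_l (R.isb _ nc) (R.isb _ nf.car) nc, mul_comm]
    exact mul_le_mul_of_nonneg_right (by nlinarith) e0.le
  have w : ∀ P, 0 < dg m.A P → 1 ≤ dg (N + f) P ∧ ∃ b : ℕ, (b : ℝ) ≤ 2 * dg (N + f) P ∧
      dg (m.c P) P + dg m.k P + 2 < b * (b + 1) := fun P a => by
    rw [R.add _ nc _ nf.car]
    have := hN.nn P
    have := nf.nn P
    rcases lt_or_ge (dg m.k P) 0 with k | k
    · have k1 := k_le R m k
      have p : 1 ≤ dg N P := by linarith [nξ.nn P, eξ P]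
      have hd := R.hodge nc (m.car a) pos
      rw [m.I2_c a (m.cd P a), m.I2_c' R a nc dN] at hd
      have b1 := Nat.floor_le (hN.nn P)
      have b2 := Nat.lt_floor_add_one (dg N P)
      refine ⟨by linarith, ⌊dg N P⌋₊ + 1, by push_cast; linarith, ?_⟩
      push_cast
      have s : dg (m.c P) P ≤ dg N P ^ 2 := by
        rcases le_total (dg (m.c P) P) 0 with s | s
        · exact s.trans (sq_nonneg _)
        · nlinarith
      nlinarith
    · obtain ⟨k0, s⟩ := neg P a k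
      have := hf P a k
      exact ⟨by linarith, 1, by push_cast; linarith, by push_cast; linarith⟩
  refine ⟨k9, fun P a => ?_, fun u a => ?_⟩
  · have := R.le_I2 (R.isb _ hD) nM.car (fun Q => by
      rcases (nM.nn Q).eq_or_lt with z | z
      · rw [← z, mul_zero]
      · exact mul_nonneg (D0 Q (dM.pos m.nn z.ne')) z.le) P
    nlinarith [mul_le_mul_of_nonneg_left (w P a).1 (D0 P a)]
  · obtain ⟨S, hS, e⟩ := eq_cm R m hD dD
    have a0 : 0 ≤ cn L 2 u - m.k u := sub_nonneg.2 (m.k_le u)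
    have q := m.I2_cm R D hS nM.car dM
    rw [← e] at q
    calc D u = ∑ P ∈ S, D P * m.c P u := by
          conv_lhs => rw [e]
          simp [cm, Finset.sum_apply]
      _ ≤ ∑ P ∈ S, D P * dg (N + f) P * (2 * (cn L 2 u - m.k u)) :=
          Finset.sum_le_sum fun P k => by
            obtain ⟨-, b, b1, b2⟩ := w P (hS P k)
            rw [mul_assoc]
            refine mul_le_mul_of_nonneg_left ((mult P u b (hS P k) a b2).trans ?_) (D0 P (hS P k))
            nlinarith [mul_le_mul_of_nonneg_right b1 a0]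
      _ ≤ _ := by
          rw [← Finset.sum_mul, ← q]
          nlinarith [mul_le_mul_of_nonneg_right DM a0]

omit R m X hm in
/-- **MIN** -/
theorem min_of (hX : ∀ (L : Type) [Field L] [Algebra ℂ L], FF L 2 → Xr L) : MIN := by
  intro L _ _ m ε N ξ D hL h e0 e1 hm
  have R := rows hL
  have c := add_mem m.kcar h.nn.car
  have c' := Submodule.smul_mem _ ε h.nn.car
  obtain ⟨a, b, k⟩ := min_end R m (hX L hL) hm h.nn h.det h.pos
    (by simpa using add_mem (Prn_le_Car h.xi) c) (by simpa using add_mem (Prn_le_Car h.dp) c')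
    (fun P => by rw [R.congr c h.xi, R.add _ m.kcar _ h.nn.car])
    (fun P => by rw [R.congr c' h.dp, R.smul _ _ h.nn.car]) (fun P _ => h.x0 P) h.le e0 e1
  exact ⟨a, Mu.mono ⟨b, k⟩ (by linarith)⟩

end Vale.Agent.P287D.Sl
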