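import Vale.Agent.P287D.Sl.Chain
import Vale.Agent.P287D.Sl.Min
import Vale.Agent.P287D.En.Su

/-!
# P287D: the surface lemma holds
-/

namespace Vale.Agent.P287D

theorem Sl.min' : Sl.MIN := Sl.min_of fun _ _ _ h => En.xr h

/-- **SL** -/
theorem Tg.sl : Tg.SL := Sl.chain_of (fun _ _ _ h => En.xr h) Sl.min'

end Vale.Agent.P287D
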