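import Vale.Agent.P287D.Sl.Dt
import Vale.Agent.P287D.Sf.Row

/-!
# P287D: the surface lemma, from the minimal models to the minimal resolution
-/

set_option linter.unusedVariables false
set_option linter.unusedSectionVars false

open Set

noncomputable section

namespace Vale.Agent.P287D.Sl

open Sf Sf.Nm Su

variable {L : Type} [Field L] [Algebra ℂ L] {ε : ℝ}

variable (H : MIN) (hL : FF L 2) (R : Rows L) (X : Xr L) (e0 : 0 < ε) (e1 : ε ≤ 1 / 51200)
include H hL R X e0 e1

/-- every contraction raises `K²` by one and halves the multiplicities at most -/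
theorem chain_two (m : Nm L) : ∀ N ξ D, Dt m ε N ξ D →
    ∃ j : ℕ, I2 m.k m.k + j ≤ 9 ∧ m.Mu D (2 ^ j * (100 * ε)) := by
  refine minimal R X (p := fun m => ∀ N ξ D, Dt m ε N ξ D →
    ∃ j : ℕ, I2 m.k m.k + j ≤ 9 ∧ m.Mu D (2 ^ j * (100 * ε))) ?_ ?_ m
  · intro m hm N ξ D h
    exact ⟨0, by simpa using H L m ε N ξ D hL h e0 (by linarith) hm⟩
  · intro m E n ih N ξ D h
    obtain ⟨j, a, b⟩ := ih _ _ _ (h.push R n)
    have c : I2 (ctr R n).k (ctr R n).k = I2 m.k m.k + 1 := by
      change I2 (m.push E m.k) (m.push E m.k) = _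
      rw [I2_push R n m.kcar m.kcar m.kd m.kd, n.can]
      norm_num
    refine ⟨j + 1, by push_cast; linarith, ?_⟩
    rw [pow_succ', mul_assoc]
    exact Mu.step R n (by rw [h.dgD R]; exact mul_nonneg e0.le (h.nn.nn E)) (by positivity) b

/-- the contraction of the `(-1)`-curves of small degree -/
theorem chain_one (m : Nm L) (N ξ D : BD L) (h : Dt m ε N ξ D) (v : Pl L) :
    D v - ξ v - m.dk v / 2 ≤ 1 / 2 := by
  induction hn : {P | 0 < dg m.A P ∧ ξ P ≠ 0}.ncard using Nat.strong_induction_on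
    generalizing m N ξ D with
  | _ r ih =>
    by_cases k : ∃ E, m.Neg E ∧ dg N E < 1 / 2
    · obtain ⟨E, n, s⟩ := k
      have x := h.dgx R E
      rw [n.can] at x
      have p := (h.neg R (P := E) (by linarith)).2
      have t : {P | 0 < dg (ctr R n).A P ∧ m.push E ξ P ≠ 0} ⊂ {P | 0 < dg m.A P ∧ ξ P ≠ 0} :=
        ⟨fun P k =>
          have e := (pos_iff R n).1 k.1
          ⟨e.1, push_apply R n ξ e.1 e.2 ▸ k.2⟩,
        fun k => ((pos_iff R n).1 (k ⟨n.pos, p.ne'⟩).1).2 rfl⟩
      have i := ih _ (hn ▸ ncard_lt_ncard t (m.fin ξ (R.isb ξ h.xc))) _ _ _ _ (h.push R n) rfl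
      rw [dk_ctr R n] at i
      change D v + dg D E * m.c E v - (ξ v + dg ξ E * m.c E v) - (m.dk v + m.c E v) / 2 ≤ _ at i
      rw [h.dgD R, x] at i
      have c : 0 ≤ m.c E v := m.c0 E n.pos v
      nlinarith [mul_nonneg (mul_nonneg e0.le (h.nn.nn E)) c, mul_nonneg (sub_nonneg.2 s.le) c]
    · have nn : Nn (ξ + (1 : ℝ) • N) := ⟨add_mem h.xc (Submodule.smul_mem _ _ h.nn.car), fun P => by
        rw [R.add_smul h.xc h.nn.car]
        by_contra l
        have n := (h.neg R (P := P) (by linarith [h.nn.nn P])).1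
        rw [h.dgx R, n.can] at l
        exact k ⟨P, n, by linarith⟩⟩
      have q := h.ksq R nn zero_le_one
      obtain ⟨j, a, b⟩ := chain_two H hL R X e0 e1 m N ξ D h
      have j9 : (j : ℝ) < 9 := by
        linarith [mul_pos (by linarith : 0 < 1 - (2 + 1) * ε) h.pos]
      have j8 : j ≤ 8 := Nat.lt_succ_iff.1 (by exact_mod_cast j9)
      have w : (2 : ℝ) ^ j ≤ 2 ^ 8 := pow_le_pow_right₀ one_le_two j8
      have u := b.mono (μ' := 1 / 2) (by nlinarith)
      have x : 0 ≤ ξ v := h.x0 v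
      have y : 0 ≤ m.dk v := m.dk_nonneg v
      rcases (m.nn.nn v).eq_or_lt with l | l
      · linarith [u.off v l.symm]
      · linarith [u.co v l]

omit H hL R X e0 e1 in
/-- **CHAIN** -/
theorem chain_of (X : Sh.For2 fun L _ _ => Xr L) : CHAIN := fun H => by
  refine ⟨1 / 51200, by norm_num, fun L _ _ N Z ε hL hs hb ⟨G, hG⟩ e0 e1 hZ hv v => ?_⟩
  have R := rows hL
  have nn := R.nn_smp hs
  have pos := R.sq_pos nn hb
  obtain ⟨m, d, -, k, -⟩ := R.minres nn hb
  have xi : G - m.dk - (m.k + N) ∈ Prn L := by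
    convert hG.2 using 1
    rw [Nm.dk]
    abel
  have dp : Z + G - ε • N ∈ Prn L := by
    convert add_mem hZ hG.2 using 1
    module
  have kN := add_mem m.kcar nn.car
  have sN := Submodule.smul_mem _ ε nn.car
  have xc : G - m.dk ∈ Car L := by simpa using add_mem (Prn_le_Car xi) kN
  have Dc : Z + G ∈ Car L := by simpa using add_mem (Prn_le_Car dp) sN
  have dx : ∀ P, dg (G - m.dk) P = dg m.k P + dg N P := fun P => by
    rw [R.congr kN xi, R.add _ m.kcar _ nn.car]
  have dD : ∀ P, dg (Z + G) P = ε * dg N P := fun P => by rw [R.congr sN dp, R.smul ε N nn.car]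
  have h : Dt m ε N (G - m.dk) (Z + G) := ⟨nn, d, pos, xi,
    Sh.nonneg_of R m xc (fun P e => by rw [dx, m.kd P e, d P e, add_zero]) fun P e => by
      rw [Pi.sub_apply, m.dk_on e, sub_zero]
      exact hG.1 P, dp,
    R.negat nn pos Dc (fun P e => add_nonneg (hv P (on_iff.2 e)) (hG.1 P)) fun P e => by
      rw [dD, e, mul_zero],
    fun P _ => sub_nonneg.1 (R.negat nn pos (sub_mem Dc xc) (fun P e => by
      have := m.dk_nonneg P
      change 0 ≤ Z P + G P - (G P - m.dk P)
      linarith [hv P (on_iff.2 e), show 0 ≤ m.dk P from this]) (fun P e => by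
      rw [R.sub Dc xc, dD, dx, e]
      linarith [k P e]) P)⟩
  have := chain_one H hL R (X L hL) e0 e1 m N _ _ h v
  have y : 0 ≤ m.dk v := m.dk_nonneg v
  change Z v + G v - (G v - m.dk v) - _ ≤ _ at this
  linarith

end Vale.Agent.P287D.Sl
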