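import Vale.Agent.P287D.Sl.St

/-!
# P287D: the surface lemma, the data on a numerical model
-/

set_option linter.unusedVariables false
set_option linter.unusedSectionVars false

open Set

noncomputable section

namespace Vale.Agent.P287D.Sl

open Sf Sf.Nm Su

variable {L : Type} [Field L] [Algebra ℂ L] {N ξ D γ : BD L} {m : Nm L} {ε : ℝ} {P E : Pl L}

variable (R : Rows L)
include R

/-- a curve on which an effective class is negative has negative square -/
theorem sq_neg_of (hγ : γ ∈ Car L) (d : Det m.A γ) (h : 0 ≤ γ) (k : dg γ P < 0) :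
    0 < dg m.A P ∧ 0 < γ P ∧ dg (m.c P) P < 0 := by
  have hP := d.pos m.nn k.ne
  have c := add_mem hγ (Submodule.smul_mem _ (-γ P) (m.car hP))
  have v : ∀ Q, 0 < dg m.A Q → (γ + (-γ P) • m.c P) Q = γ Q - γ P * P.δ Q := fun Q q => by
    rw [Pi.add_apply, Pi.smul_apply, m.cδ P Q hP q, smul_eq_mul]
    ring
  have e := R.eff _ c (Sh.nonneg_of R m c (R.det_add d (R.det_smul _ (m.cd P hP) (m.car hP)) hγ
    (Submodule.smul_mem _ _ (m.car hP))) fun Q q => by
      rw [v Q q]
      by_cases s : Q = P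
      · rw [s, Pl.δ_self, mul_one, sub_self]
      · rw [Pl.δ_ne s, mul_zero, sub_zero]
        exact h Q) P (by rw [v P hP, Pl.δ_self, mul_one, sub_self])
  rw [R.add_smul hγ (m.car hP)] at e
  have g : 0 ≤ γ P := h P
  have : γ P * dg (m.c P) P < 0 := by linarith
  refine ⟨hP, g.lt_of_ne fun z => ?_, neg_of_mul_neg_right this g⟩
  rw [← z, zero_mul] at this
  exact lt_irrefl _ this

theorem push_nonneg (n : m.Neg E) (hγ : γ ∈ Car L) (d : Det m.A γ) (h : 0 ≤ γ) :
    0 ≤ m.push E γ :=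
  Sh.nonneg_of R (ctr R n) (push_car R n hγ) (det_push R n hγ d) fun P e => by
    have e' := (pos_iff R n).1 e
    rw [push_apply R n _ e'.1 e'.2]
    exact h P

namespace Dt

variable (h : Dt m ε N ξ D)
include h

omit R in
theorem xc : ξ ∈ Car L := by
  simpa using add_mem (Prn_le_Car h.xi) (add_mem m.kcar h.nn.car)

omit R in
theorem Dc : D ∈ Car L := by
  simpa using add_mem (Prn_le_Car h.dp) (Submodule.smul_mem _ ε h.nn.car)

theorem dgx (P : Pl L) : dg ξ P = dg m.k P + dg N P := by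
  rw [R.congr (add_mem m.kcar h.nn.car) h.xi, R.add _ m.kcar _ h.nn.car]

theorem dgD (P : Pl L) : dg D P = ε * dg N P := by
  rw [R.congr (Submodule.smul_mem _ ε h.nn.car) h.dp, R.smul ε N h.nn.car]

theorem xd : Det m.A ξ := fun P e => by rw [h.dgx R, m.kd P e, h.det P e, add_zero]

theorem Dd : Det m.A D := fun P e => by rw [h.dgD R, h.det P e, mul_zero]

/-- a curve on which `ξ` is negative is a `(-1)`-curve in the support of `ξ` -/
theorem neg (k : dg ξ P < 0) : m.Neg P ∧ 0 < ξ P := by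
  obtain ⟨a, b, c⟩ := sq_neg_of R h.xc (h.xd R) h.x0 k
  rw [h.dgx R] at k
  exact ⟨(m.neg_of R a c (by linarith [h.nn.nn P])).1, b⟩

/-- if `K + (1 + t) N` is nef then `K² ≥ (1 - (2 + t) ε) N²` -/
theorem ksq {t : ℝ} (k : Nn (ξ + t • N)) (ht : 0 ≤ t) :
    (1 - (2 + t) * ε) * I2 N N ≤ I2 m.k m.k := by
  have ix := R.isb ξ h.xc
  have iN := R.isb N h.nn.car
  have a := k.I2_nonneg (Z := ξ) fun P _ => h.x0 P
  have b := R.mono_l ix (R.isb D h.Dc) h.nn fun P e => h.le P (h.det.pos m.nn e.ne')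
  rw [R.add_r ix h.xc (Submodule.smul_mem _ t h.nn.car), R.smul_r t ix h.nn.car] at a
  rw [R.congr_l (isB_smul ε iN) h.dp h.nn.car, R.smul_l ε iN h.nn.car] at b
  have c : ∀ γ ∈ Car L, I2 ξ γ = I2 m.k γ + I2 N γ := fun γ e => by
    rw [R.congr_l (isB_add (R.isb _ m.kcar) iN) h.xi e, R.add_l (R.isb _ m.kcar) iN e]
  have c1 := c ξ h.xc
  have c2 := c N h.nn.car
  have c3 := c m.k m.kcar
  rw [R.symm _ m.kcar ξ h.xc, R.symm N h.nn.car ξ h.xc] at c1
  rw [R.symm N h.nn.car _ m.kcar] at c3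
  nlinarith [mul_le_mul_of_nonneg_left b ht]

/-- the data are preserved by contractions -/
theorem push (n : m.Neg E) : Dt (ctr R n) ε (m.push E N) (m.push E ξ) (m.push E D) := by
  refine ⟨push_nn R n h.nn.car (fun Q _ => h.nn.nn Q) (h.nn.nn E), det_push R n h.nn.car h.det, ?_,
    ?_, push_nonneg R n h.xc (h.xd R) h.x0, ?_, push_nonneg R n h.Dc (h.Dd R) h.d0, fun P e => ?_⟩
  · rw [I2_push R n h.nn.car h.nn.car h.det h.det]
    exact add_pos_of_pos_of_nonneg h.pos (mul_self_nonneg _)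
  · change m.push E ξ - (m.push E m.k + m.push E N) ∈ _
    convert h.xi using 1
    simp only [Nm.push, h.dgx R]
    module
  · convert h.dp using 1
    simp only [Nm.push, h.dgD R]
    module
  · have e' := (pos_iff R n).1 e
    rw [push_apply R n _ e'.1 e'.2, push_apply R n _ e'.1 e'.2]
    exact h.le P e'.1

end Dt

end Vale.Agent.P287D.Sl
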